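import Vale.Agent.P174.Main

/-! Howie's conjecture: nonsingular systems of equations over groups are solvable. -/

namespace Vale.Agent.Results.P174.Howie

/-- The exponent sum homomorphism `G * F_n → ℤ^n`: it kills `G` and sends `x j` to `e j`. -/
def expSum (G : Type*) [Group G] (n : ℕ) :
    Monoid.Coprod G (FreeGroup (Fin n)) →* Multiplicative (Fin n → ℤ) :=
  Monoid.Coprod.lift 1 (FreeGroup.lift fun j => Multiplicative.ofAdd (Pi.single j 1))

/-- The exponent sum matrix of a system, with rational entries. -/
def expMatrix {G : Type*} [Group G] {m n : ℕ} (w : Fin m → Monoid.Coprod G (FreeGroup (Fin n))) :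
    Matrix (Fin m) (Fin n) ℚ :=
  Matrix.of fun i j => ((Multiplicative.toAdd (expSum G n (w i)) j : ℤ) : ℚ)

theorem result (G : Type*) [Group G] (m n : ℕ) (w : Fin m → Monoid.Coprod G (FreeGroup (Fin n)))
    (h : (expMatrix w).rank = m) :
    Function.Injective ((QuotientGroup.mk' (Subgroup.normalClosure (Set.range w))).comp
      (Monoid.Coprod.inl : G →* Monoid.Coprod G (FreeGroup (Fin n)))) :=
  Vale.Agent.P174.howie w h

end Vale.Agent.Results.P174.Howie
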